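import Vale.Agent.P004R.St2
import Vale.Agent.P022E.GW.Kc
import Vale.Agent.P022K.G2.Tam

/-!
# P014Z: roots which are near an integer, and induced Kummer cocycles
-/

set_option autoImplicit false
set_option linter.all false

open NumberField IsDedekindDomain
open scoped Pointwise

noncomputable section

namespace Vale.Agent.P014Z.Sh

open Vale.Agent.P022 (Qb GQ GK below)
open Vale.Agent.P027M.S (Inert)
open Vale.Agent.P022D.W (dec)
open Vale.Agent.P022E.GW (Ov)
open Vale.Agent.P022K.G2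
open P004R (Z0 r1)

variable (p : ℕ) [Fact p.Prime]

/-- the root of unity as an integer -/
def zi : 𝓞 Qb := ⟨zt p, (zt_prim p).isIntegral (Fact.out : p.Prime).pos⟩

/-- `x` is divisible by `(1 - ζ) ^ n P`, locally at `P` -/
def Dv (P : Ideal (𝓞 Qb)) (n : ℕ) (x : 𝓞 Qb) : Prop :=
  ∃ d ∉ P, ∃ t ∈ P, d * x = (1 - zi p) ^ n * t

variable {p} {P : Ideal (𝓞 Qb)}

theorem zi_prim : IsPrimitiveRoot (zi p) p :=
  IsPrimitiveRoot.of_map_of_injective (f := algebraMap (𝓞 Qb) Qb) (zt_prim p)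
    RingOfIntegers.coe_injective

theorem pi_ne : 1 - zi p ≠ 0 :=
  sub_ne_zero.2 (zi_prim.ne_one (Fact.out : p.Prime).one_lt).symm

theorem pi_dvd : (1 - zi p) ^ (p - 1) ∣ p := by
  have e : p - 1 + 1 = p := Nat.sub_add_cancel (Fact.out : p.Prime).pos
  have h := IsPrimitiveRoot.prod_one_sub_pow_eq_order (n := p - 1) (μ := zi p) (e.symm ▸ zi_prim)
  rw [← Nat.cast_succ, Nat.succ_eq_add_one, e] at h
  rw [← h, ← Finset.card_range (p - 1), ← Finset.prod_const, Finset.card_range]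
  exact Finset.prod_dvd_prod_of_dvd _ _ fun k _ => one_sub_dvd_one_sub_pow _ _

theorem pi_mem (hP : P.IsPrime) (hp : (p : 𝓞 Qb) ∈ P) : 1 - zi p ∈ P := by
  obtain ⟨r, hr⟩ := exists_add_pow_prime_eq (Fact.out : p.Prime) (zi p) (1 - zi p)
  rw [add_sub_cancel, one_pow, zi_prim.pow_eq_one] at hr
  refine hP.mem_of_pow_mem p ?_
  rw [show (1 - zi p) ^ p = p * -(zi p * (1 - zi p) * r) by linear_combination -hr]
  exact P.mul_mem_right _ hp

/-- multiples of `p ^ 2` -/
theorem dv_sq (h2 : p ≠ 2) (hP : P.IsPrime) (hp : (p : 𝓞 Qb) ∈ P) {d x w : 𝓞 Qb} (hd : d ∉ P)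
    (h : d * x = p ^ 2 * w) : Dv p P p x := by
  obtain ⟨u, hu⟩ := pi_dvd (p := p)
  obtain ⟨k, hk⟩ : ∃ k, p = k + 3 :=
    ⟨p - 3, by have := (Fact.out : p.Prime).two_le; omega⟩
  refine ⟨d, hd, (1 - zi p) * ((1 - zi p) ^ k * u ^ 2 * w),
    P.mul_mem_right _ (pi_mem hP hp), ?_⟩
  rw [h, hu]
  generalize 1 - zi p = π
  subst hk
  rw [show k + 3 - 1 = k + 2 from rfl]
  ring

/-- existence of the root -/
theorem ex_nr (hP : P.IsPrime) {a y : 𝓞 Qb} (h : Dv p P p (a - y ^ p)) :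
    ∃ β : 𝓞 Qb, β ^ p = a ∧ Dv p P 1 (β - y) := by
  have hp : p.Prime := Fact.out
  obtain ⟨d, hd, w, hw, h⟩ := h
  obtain ⟨u, hu⟩ := pi_dvd (p := p)
  obtain ⟨k, hk⟩ : ∃ k, p = k + 2 := ⟨p - 2, by have := hp.two_le; omega⟩
  have key : ∀ β : 𝓞 Qb, β ^ p = a → ∃ t, d * (β - y) = (1 - zi p) * t := fun β e => by
    obtain ⟨r, hr⟩ := exists_add_pow_prime_eq hp y (β - y)
    rw [add_sub_cancel, e, hu] at hr
    have n0 : ((1 - zi p : 𝓞 Qb) : Qb) ≠ 0 := RingOfIntegers.coe_ne_zero_iff.2 pi_ne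
    generalize 1 - zi p = π at *
    generalize β - y = x at *
    have q : (d * x) ^ p + π ^ (p - 1) * (u * d ^ (p - 1) * y * r) * (d * x) =
        π ^ p * (d ^ (p - 1) * w) := by
      subst hk
      rw [show k + 2 - 1 = k + 1 from rfl] at hr ⊢
      linear_combination d ^ (k + 1) * h - d ^ (k + 2) * hr
    have i : IsIntegral ℤ (((d * x : 𝓞 Qb) : Qb) / π) := isIntegral_trans (A := 𝓞 Qb) _
      ⟨Polynomial.X ^ p + (Polynomial.C (u * d ^ (p - 1) * y * r) * Polynomial.X -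
        Polynomial.C (d ^ (p - 1) * w)), Polynomial.monic_X_pow_add (by
          refine lt_of_le_of_lt (b := 1) (by compute_degree!) (by exact_mod_cast hp.one_lt)), by
        have q' := congrArg (algebraMap (𝓞 Qb) Qb) q
        generalize u * d ^ (p - 1) * y * r = c at q' ⊢
        generalize d ^ (p - 1) * w = c' at q' ⊢
        generalize d * x = z at q' ⊢
        simp only [Polynomial.eval₂_add, Polynomial.eval₂_sub, Polynomial.eval₂_mul,
          Polynomial.eval₂_pow, Polynomial.eval₂_X, Polynomial.eval₂_C]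
        simp only [map_add, map_mul, map_pow, map_zero] at q'
        change _ ≠ (0 : Qb) at n0
        simp only [RingOfIntegers.coe_eq_algebraMap] at n0 ⊢
        generalize algebraMap (𝓞 Qb) Qb π = π' at n0 q' ⊢
        subst hk
        rw [show k + 2 - 1 = k + 1 from rfl] at q'
        rw [div_pow]
        field_simp
        linear_combination π' * q'⟩
    exact ⟨⟨_, i⟩, RingOfIntegers.ext (mul_div_cancel₀ _ n0).symm⟩
  let b : 𝓞 Qb := ⟨rt p a, IsIntegral.of_pow hp.pos (by rw [rt_pow]; exact a.isIntegral_coe)⟩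
  have hb : b ^ p = a := RingOfIntegers.ext (rt_pow p a)
  have r : ∀ ξ ∈ Polynomial.nthRootsFinset p (1 : 𝓞 Qb), (ξ * b) ^ p = a := fun ξ m => by
    rw [mul_pow, (Polynomial.mem_nthRootsFinset hp.pos _).1 m, one_mul, hb]
  choose! t ht using fun ξ m => key _ (r ξ m)
  have q := zi_prim.pow_sub_pow_eq_prod_sub_mul y b hp.pos
  have q2 : (1 - zi p) ^ p * ∏ ξ ∈ Polynomial.nthRootsFinset p (1 : 𝓞 Qb), -t ξ =
      (1 - zi p) ^ p * -(d ^ (p - 1) * w) := by
    have c := (zi_prim (p := p)).card_nthRootsFinset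
    calc _ = ∏ ξ ∈ Polynomial.nthRootsFinset p (1 : 𝓞 Qb), d * (y - ξ * b) := by
          rw [show (1 - zi p) ^ p = ∏ ξ ∈ Polynomial.nthRootsFinset p (1 : 𝓞 Qb), (1 - zi p) by
            rw [Finset.prod_const, c], ← Finset.prod_mul_distrib]
          exact Finset.prod_congr rfl fun ξ m => by linear_combination ht ξ m
      _ = _ := by
          rw [Finset.prod_mul_distrib, Finset.prod_const, c, ← q, hb]
          generalize 1 - zi p = π at *
          subst hk
          rw [show k + 2 - 1 = k + 1 from rfl]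
          linear_combination -d ^ (k + 1) * h
  obtain ⟨ξ, m, e⟩ := (Ideal.IsPrime.prod_mem_iff (hp := hP)).1
    ((mul_left_cancel₀ (pow_ne_zero _ pi_ne) q2).symm ▸ P.neg_mem (P.mul_mem_left _ hw))
  exact ⟨_, r ξ m, d, hd, t ξ, by simpa using e, by rw [pow_one, ht ξ m]⟩

/-- uniqueness of the root -/
theorem nr_eq (hP : P.IsPrime) {y β γ : 𝓞 Qb} (hy : y ∉ P) (e : γ ^ p = β ^ p)
    (h : Dv p P 1 (β - y)) (h' : Dv p P 1 (γ - y)) : γ = β := by
  obtain ⟨d, hd, t, ht, h⟩ := h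
  obtain ⟨d', hd', t', ht', h'⟩ := h'
  rw [pow_one] at h h'
  obtain ⟨k, hk⟩ := ex_log (p := p) (β := β) (γ := γ) (congrArg Subtype.val e)
  have hk' : γ = zi p ^ k.val * β := RingOfIntegers.ext hk
  by_cases k0 : k = 0
  · rw [hk', k0, ZMod.val_zero, pow_zero, one_mul]
  have pr := (zi_prim (p := p)).pow_of_coprime k.val (ZMod.val_coe_unit_coprime (Units.mk0 k k0))
  obtain ⟨m, -, hm⟩ := pr.eq_pow_of_pow_eq_one (zi_prim (p := p)).pow_eq_one
  obtain ⟨c, hc⟩ := one_sub_dvd_one_sub_pow (zi p ^ k.val) m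
  rw [hm] at hc
  have n0 := sub_ne_zero.2 (pr.ne_one (Fact.out : p.Prime).one_lt).symm
  have s : d * d' * β = c * (d' * t - d * t') := mul_left_cancel₀ n0 (by
    linear_combination d' * h - d * h' + d * d' * hk' + (d' * t - d * t') * hc)
  have b : β ∈ P := (hP.mem_or_mem (s ▸ P.mul_mem_left _
    (P.sub_mem (P.mul_mem_left _ ht) (P.mul_mem_left _ ht')))).resolve_left
    fun m => (hP.mem_or_mem m).elim hd hd'
  have := P.sub_mem b ((hP.mem_or_mem (h ▸ P.mul_mem_left _ ht)).resolve_left hd)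
  rw [sub_sub_cancel] at this
  exact (hy this).elim

theorem Dv.smul {n : ℕ} {x : 𝓞 Qb} (h : Dv p P n x) {g : GQ} (hg : g ∈ dec P) :
    Dv p P n (g • x) := by
  obtain ⟨d, hd, t, ht, h⟩ := h
  obtain ⟨c, hc⟩ := one_sub_dvd_one_sub_pow (zi p) (oz p g).val
  refine ⟨g • d, fun m => hd ((hg d).1 m), c ^ n * g • t, P.mul_mem_left _ ((hg t).2 ht), ?_⟩
  rw [← smul_mul', h, smul_mul', smul_pow', smul_sub, smul_one,
    show g • zi p = zi p ^ (oz p g).val from RingOfIntegers.ext (oz_spec g), hc, mul_pow]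
  ring

variable (p) in
open Classical in
/-- the logarithm of the quotient of two roots -/
def lg (β γ : Qb) : ZMod p :=
  if h : ∃ k : ZMod p, γ = zt p ^ k.val * β then h.choose else 0

theorem lg_spec {β γ : Qb} (h : γ ^ p = β ^ p) : γ = zt p ^ (lg p β γ).val * β := by
  have k := ex_log h
  rw [lg, dif_pos k]
  exact k.choose_spec

theorem lg_self {β : Qb} (h0 : β ≠ 0) : lg p β β = 0 :=
  pw_inj (mul_right_cancel₀ h0 (by rw [← lg_spec rfl, ZMod.val_zero, pow_zero, one_mul]))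

section ind

variable {A R : Type} [AddCommGroup A] [Fintype A] [CommRing R] (ι : ZMod p →+* R) (t : A → R)
  (e : GQ → A) (β : A → Qb)

/-- the induced Kummer cocycle -/
def zz (g : GQ) : R := ∑ i, t (i + e g) * ι (lg p (β (i + e g)) (g (β i)))

/-- a family of roots whose powers are permuted by `Γ` -/
structure Fm (p : ℕ) (Γ : Subgroup GQ) (e : GQ → A) (β : A → Qb) : Prop where
  ne : ∀ i, β i ≠ 0
  act : ∀ g ∈ Γ, ∀ i, g (β i) ^ p = β (i + e g) ^ p

variable {ι t e β} {Γ : Subgroup GQ}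

theorem zz_zero (f : Fm p Γ e β) {g : GQ} (h : ∀ i, g (β i) = β (i + e g)) :
    zz ι t e β g = 0 :=
  Finset.sum_eq_zero fun i _ => by rw [h, lg_self (f.ne _), map_zero, mul_zero]

theorem zz_mul (f : Fm p Γ e β) (he : ∀ g ∈ Γ, ∀ h ∈ Γ, e (g * h) = e g + e h)
    (ht : ∀ a b, t (a + b) = t a * t b) {g h : GQ} (hg : g ∈ Γ) (hh : h ∈ Γ) :
    zz ι t e β (g * h) = zz ι t e β g + ι (oz p g) * t (e g) * zz ι t e β h := by
  simp only [zz, Finset.mul_sum]
  rw [← Equiv.sum_comp (Equiv.addRight (e h))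
    fun i => t (i + e g) * ι (lg p (β (i + e g)) (g (β i))), ← Finset.sum_add_distrib]
  refine Finset.sum_congr rfl fun i _ => ?_
  have c : lg p (β (i + e h + e g)) ((g * h) (β i)) = lg p (β (i + e h + e g)) (g (β (i + e h))) +
      oz p g * lg p (β (i + e h)) (h (β i)) := by
    have k := f.act _ (Γ.mul_mem hg hh) i
    rw [he g hg h hh, add_comm (e g), ← add_assoc] at k
    refine pw_inj (mul_right_cancel₀ (f.ne (i + e h + e g)) ?_)
    rw [← lg_spec k, pw_add, mul_right_comm, ← lg_spec (f.act g hg _), ← oz_pw, ← map_mul,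
      mul_comm, ← lg_spec (f.act h hh i), AlgEquiv.mul_apply]
  rw [he g hg h hh, add_comm (e g), ← add_assoc, Equiv.coe_addRight, c, ht (i + e h), map_add,
    map_mul]
  ring

open Classical in
/-- the cocycle is in the rank one group -/
theorem zz_mem (f : Fm p Γ e β) (he : ∀ g ∈ Γ, ∀ h ∈ Γ, e (g * h) = e g + e h)
    (ht : ∀ a b, t (a + b) = t a * t b) {W : Subgroup GQ} (o : IsOpen (W : Set GQ))
    (hW : ∀ w ∈ W, e w = 0) {T : Finset ℕ}
    (hT : ∀ g ∈ Γ, g ∈ In T → ∀ i, g (β i) = β (i + e g))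
    (hP : ∀ g ∈ Γ, g ∈ dec P → ∀ i, g (β i) = β (i + e g)) :
    ((fun g _ => if g ∈ Γ then zz ι t e β g else 0, 0) : (GQ → Fin 1 → R) × (Empty → R)) ∈
      Z0 Γ T (r1 fun g => ι (oz p g) * t (e g)) P := by
  have z0 : ∀ g, (g ∈ Γ → ∀ i, g (β i) = β (i + e g)) →
      (fun _ : Fin 1 => if g ∈ Γ then zz ι t e β g else 0) = 0 := fun g h => funext fun _ =>
    ite_eq_right_iff.2 fun m => zz_zero f (h m)
  refine ⟨fun g hg h hh => funext fun i => ?_, fun g hg => funext fun _ => if_neg hg,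
    ⟨W ⊓ ⨅ i, MulAction.stabilizer GQ (β i), ?_, fun w hw => z0 w fun _ i => ?_⟩,
    fun g hi => z0 g fun m => hT g m hi,
    fun _ g hg => (z0 g fun m => hP g m hg.2).trans (P004F.Pr.ac_zero _).symm⟩
  · simpa [P004F.Pr.ac, r1, hg, hh, Γ.mul_mem hg hh, Subsingleton.elim i 0] using
      zz_mul f he ht hg hh
  · rw [Subgroup.coe_inf, Subgroup.coe_iInf]
    exact o.inter (isOpen_iInter_of_finite fun i => P022E.GW.Kc.stab_open _)
  · rw [hW w hw.1, add_zero]
    exact Subgroup.mem_iInf.1 hw.2 i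

/-- what the cocycle remembers -/
theorem zz_rec {γ : A → Qb} (f : Fm p Γ e β) (f' : Fm p Γ e γ) {n : A → ℕ}
    (hn : ∀ c : A → ZMod p, ∑ i, t i * ι (c i) = 0 → ∑ i, n i * c i = 0) {g : GQ} (hg : g ∈ Γ)
    (h0 : e g = 0) (h : zz ι t e β g = zz ι t e γ g) :
    g (∏ i, (β i / γ i) ^ n i) = ∏ i, (β i / γ i) ^ n i := by
  have a := fun i => lg_spec (f.act g hg i)
  have b := fun i => lg_spec (f'.act g hg i)
  simp only [zz, h0, add_zero] at a b h
  have k := hn (fun i => lg p (β i) (g (β i)) - lg p (γ i) (g (γ i))) (by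
    simpa only [map_sub, mul_sub, Finset.sum_sub_distrib, sub_eq_zero] using h)
  have s : ∀ (S : Finset A) (c : A → ZMod p),
      zt p ^ (∑ i ∈ S, n i * c i).val = ∏ i ∈ S, (zt p ^ (c i).val) ^ n i := fun S c => by
    classical
    induction S using Finset.induction_on with
    | empty => simp
    | insert i S m ih =>
      rw [Finset.sum_insert m, Finset.prod_insert m, pw_add, ih, mul_comm (n i : ZMod p), pw_mul,
        ZMod.val_natCast, ← pow_eq_pow_mod _ (pw_pow _)]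
  have u := s Finset.univ fun i => lg p (β i) (g (β i)) - lg p (γ i) (g (γ i))
  rw [k, ZMod.val_zero, pow_zero] at u
  rw [map_prod, ← one_mul (∏ i, (β i / γ i) ^ n i), u, ← Finset.prod_mul_distrib]
  refine Finset.prod_congr rfl fun i _ => ?_
  rw [map_pow, ← mul_pow, map_div₀]
  congr 1
  have v := pw_add (lg p (β i) (g (β i)) - lg p (γ i) (g (γ i))) (lg p (γ i) (g (γ i)))
  rw [sub_add_cancel] at v
  have a' := a i
  have b' := b i
  rw [v] at a'
  generalize zt p ^ (lg p (β i) (g (β i)) - lg p (γ i) (g (γ i))).val = x at *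
  generalize (lg p (γ i) (g (γ i))).val = m at *
  rw [a', b', mul_assoc, mul_left_comm, mul_div_mul_left _ _ (pow_ne_zero _ zt_ne), mul_div_assoc]

end ind

end Vale.Agent.P014Z.Sh
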